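import Vale.Agent.P253.Bdl.B2

open scoped Manifold ContDiff Bundle
open Bundle Vale.Agent.P253.Mfd

namespace Vale.Agent.Results.P253.KillingFlow

/-- Yau's conjecture for manifolds with a one-parameter group of holomorphic isometries having a
fixed point with positive weights. -/
theorem result {E : Type*} [NormedAddCommGroup E] [NormedSpace ℂ E] [FiniteDimensional ℂ E]
    {M : Type*} [MetricSpace M] [ChartedSpace E M]
    [IsManifold 𝓘(ℂ, E) 1 M] [IsManifold 𝓘(ℝ, E) ∞ M]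
    [RiemannianBundle (fun x : M => TangentSpace 𝓘(ℝ, E) x)]
    [IsContMDiffRiemannianBundle 𝓘(ℝ, E) ∞ E (fun x : M => TangentSpace 𝓘(ℝ, E) x)]
    [IsRiemannianManifold 𝓘(ℝ, E) M]
    [CompleteSpace M] [NoncompactSpace M] [ConnectedSpace M] (hK : IsKahler E M)
    (hnn : ∀ x : M, NonnegBisectionalAt E x) (ρ : ℝ → M → M) (hρ : IsHolIsomFlow E ρ)
    (p : M) (hpos : PosBisectionalAt E p) (hp : IsPosFixedPoint E ρ p) :
    Nonempty (M ≃ₘ^1⟮𝓘(ℂ, E), 𝓘(ℂ, E)⟯ E) :=
  main hK hnn hρ hpos hp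

end Vale.Agent.Results.P253.KillingFlow
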